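import Vale.Agent.P032.H838.GTr
import Vale.Agent.P032.H623.NsC

/-!
# P032: edge completeness by a kernel search

`srch g V E` : the search over the columns after the column with the word `g` (column first, with
the masks of the window moves which are still possible) and then over the moves; every leaf is a
swap, a conveyor, not covered, the trivial step or a step of the list `E`.
-/

noncomputable section

namespace Vale.Agent.P032.H728.G

open Vale.Agent.P032.Six Vale.Agent.P032.H429 Vale.Agent.P032.H158 Vale.Agent.P032.H623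
  Vale.Agent.P032.H838.GTr

/-! ### raw operations -/

/-- `if c then x else y` -/
def ifr (c x y : Bool) : Bool := Bool.rec y x c

/-- all elements of a list -/
def allr {α : Type} (l : List α) (f : α → Bool) : Bool :=
  List.rec true (fun x _ ih => ifr (f x) ih false) l

/-- some element of a list -/
def anyr {α : Type} (l : List α) (f : α → Bool) : Bool :=
  List.rec false (fun x _ ih => ifr (f x) true ih) l

theorem ifr_true (x y : Bool) : ifr true x y = x := rfl
theorem ifr_false (x y : Bool) : ifr false x y = y := rfl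

theorem allr_mem {α : Type} {l : List α} {f : α → Bool} (h : allr l f = true) {x : α}
    (hx : x ∈ l) : f x = true := by
  induction l with
  | nil => exact absurd hx List.not_mem_nil
  | cons y l ih =>
    have h' : ifr (f y) (allr l f) false = true := h
    cases hy : f y with
    | false => rw [hy] at h'; cases h'
    | true =>
      rw [hy, ifr_true] at h'
      rcases List.mem_cons.1 hx with rfl | hx
      · exact hy
      · exact ih h' hx

theorem anyr_mem {α : Type} {l : List α} {f : α → Bool} (h : anyr l f = true) :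
    ∃ x ∈ l, f x = true := by
  induction l with
  | nil => cases h
  | cons y l ih =>
    have h' : ifr (f y) true (anyr l f) = true := h
    cases hy : f y with
    | true => exact ⟨y, List.mem_cons_self, hy⟩
    | false =>
      rw [hy, ifr_false] at h'
      obtain ⟨x, hx, hf⟩ := ih h'
      exact ⟨x, List.mem_cons_of_mem _ hx, hf⟩

/-- the bit `i` of `a` -/
def bt (a i : ℕ) : Bool := Nat.beq (Nat.land (Nat.shiftRight a i) 1) 1

theorem bt_eq (a i : ℕ) : bt a i = a.testBit i := by
  have h1 : Nat.land (Nat.shiftRight a i) 1 = (a >>> i) % 2 := by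
    show (a >>> i) &&& 1 = (a >>> i) % 2
    exact Nat.and_one_is_mod _
  have h2 : a.testBit i = decide ((a >>> i) % 2 = 1) := by
    rw [Nat.testBit, Nat.and_comm, Nat.and_one_is_mod]
    rcases Nat.mod_two_eq_zero_or_one (a >>> i) with h | h <;> rw [h] <;> rfl
  unfold bt
  rw [h1, h2]
  rcases Nat.mod_two_eq_zero_or_one (a >>> i) with h | h <;> rw [h] <;> rfl

/-! ### the tables -/

/-- bit `4 (24 j + c) + m` : the window `c` moved by `m` is in front of the slot `j` -/
def frT : ℕ :=
  0x800cb0cfb4551000000000000000800cb0cfb4551000000000000000800cb0cfb4551455100000000000800cb0cfb0cfb455100000000000800cb00cb0cfb4551000000000008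

/-- bit `4 (24 j + c) + m` : the window `c` moved by `m` is behind the slot `j` -/
def bkT : ℕ :=
  0x455100000000000800cb0cfb0cfb455100000000000800cb00cb0cfb4551000000000008000800cb0cfb4551000000000000000800cb0cfb4551000000000000000800cb0cfb4551

/-- bit `96 c + 6 o + k` : the ray `k` is inside the window `c` moved by some `m` of the mask `o` -/
def cuT : ℕ :=
  0x9e39e39e39e31c31c31c01c08e38e18e38e18e30c18e30c0861860861860861040861040820000820000820000820000cf1cf1cf1cf18e18e18c08c0c71c70c71c70c71860c71840c30c10c30c10c30800c30800410000410000410000410000e78e78e78e78c70c70c40c40e38e18e38e18e38c10e38c00618608618608618400618400208000208000208000208000f1cf1cf1cf1ce18e18e00e0071c70c71c70c71c60871c60030c30430c30430c20030c20010400010400010400010400078e78e78e78e70c70c70070038e38638e38638e30438e3001861821861821861001861000820000820000820000820003c73c73c73c73863863803801c71c31c71c31c71821c71800c30c10c30c10c30800c3080041000041000041000041000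

/-- bit `4 c + m` : the window `c` can be moved by `m` -/
def ovT : ℕ := 0xdffbdffbdffbdffbdffbdffb

/-- the code of the window of the colour `x` -/
def cx (V x : ℕ) : ℕ := Nat.land (Nat.shiftRight V (Nat.mul 5 x)) 31

/-- the moves of the colour `x` in the mask `O` -/
def nib (O x : ℕ) : ℕ := Nat.land (Nat.shiftRight O (Nat.mul 4 x)) 15

/-- the moves of the colour `x` which put it in front of (behind) the slot `j` -/
def frN (T V j x : ℕ) : ℕ :=
  Nat.land (Nat.shiftRight T (Nat.mul 4 (Nat.add (Nat.mul 24 j) (cx V x)))) 15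

/-- the mask `O` with the moves `o` for the colour `x` -/
def setN (O x o : ℕ) : ℕ :=
  Nat.lor (Nat.land O (Nat.xor 0xffffff (Nat.shiftLeft 15 (Nat.mul 4 x))))
    (Nat.shiftLeft o (Nat.mul 4 x))

def cu1 (V O x : ℕ) : ℕ :=
  Nat.land (Nat.shiftRight cuT (Nat.add (Nat.mul 96 (cx V x)) (Nat.mul 6 (nib O x)))) 63

/-- the rays which can be covered -/
def cvu (V O : ℕ) : ℕ :=
  Nat.lor (cu1 V O 0) (Nat.lor (cu1 V O 1) (Nat.lor (cu1 V O 2) (Nat.lor (cu1 V O 3)
    (Nat.lor (cu1 V O 4) (cu1 V O 5)))))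

def ov1 (V x : ℕ) : ℕ :=
  Nat.shiftLeft (Nat.land (Nat.shiftRight ovT (Nat.mul 4 (cx V x))) 15) (Nat.mul 4 x)

/-- all moves -/
def ov (V : ℕ) : ℕ :=
  Nat.lor (ov1 V 0) (Nat.lor (ov1 V 1) (Nat.lor (ov1 V 2) (Nat.lor (ov1 V 3)
    (Nat.lor (ov1 V 4) (ov1 V 5)))))

/-- the mask of the letter of the slot `j` of a word -/
def gm (g j : ℕ) : ℕ :=
  Nat.lor (Nat.shiftLeft 1 (Nat.land (Nat.shiftRight g (Nat.mul 6 j)) 7))
    (Nat.shiftLeft 1 (Nat.land (Nat.shiftRight g (Nat.add (Nat.mul 6 j) 3)) 7))

/-- the masks have a common bit -/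
def mtB (a b : ℕ) : Bool := Bool.rec true false (Nat.beq (Nat.land a b) 0)

def l4 : List ℕ := [0, 1, 2, 3]

/-! ### the search -/

/-- the leaf: the trivial step or a step of the list -/
def leafE (g : ℕ) (E : List Grp) (q μ : ℕ) : Bool :=
  ifr (ifr (Nat.beq q g) (Nat.beq μ 0) false) true
    (anyr E fun e => ifr (Nat.beq e.q q) (anyr e.l fun x => Nat.beq x.1 μ) false)

/-- the moves: `n` colours are left -/
def muS (V : ℕ) (f : ℕ → Bool) (n : ℕ) : ℕ → ℕ → Bool :=
  Nat.rec (fun _ μ => f μ)
    (fun n ih O μ => allr l4 fun m =>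
      ifr (bt O (Nat.add (Nat.mul 4 (Nat.sub 5 n)) m))
        (ifr (Nat.beq (cvu V (setN O (Nat.sub 5 n) (Nat.shiftLeft 1 m))) 63)
          (ih (setN O (Nat.sub 5 n) (Nat.shiftLeft 1 m))
            (Nat.add μ (Nat.mul m (Nat.pow 4 (Nat.sub 5 n))))) true) true) n

/-- the end of the column search -/
def colE (g V : ℕ) (E : List Grp) (h0 O pm : ℕ) (a b : Bool) (q : ℕ) : Bool :=
  ifr (mtB pm h0) true
    (ifr (ifr (mtB (gm g 5) h0) (ifr a true (mtB pm (gm g 0))) false) true
      (ifr (ifr (mtB pm (gm g 0)) b false) true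
        (muS V (leafE g E q) 6 O 0)))

/-- one slot of the column search: `k` is the continuation with the new mask of moves, the mask of
the letter and the digits -/
def slot (V O pm j : ℕ) (k : ℕ → ℕ → ℕ → Bool) : Bool :=
  allr l6 fun x =>
    ifr (Nat.beq (Nat.land (nib O x) (frN frT V j x)) 0) true
      (ifr (bt pm x) true
        (allr l6 fun y =>
          ifr (Nat.beq (Nat.land (nib O y) (frN bkT V j y)) 0) true
            (ifr (bt pm y) true
              (ifr (Nat.beq x y) true
                (k (setN (setN O x (Nat.land (nib O x) (frN frT V j x))) y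
                    (Nat.land (nib O y) (frN bkT V j y)))
                  (Nat.lor (Nat.shiftLeft 1 x) (Nat.shiftLeft 1 y))
                  (Nat.add x (Nat.mul 8 y)))))))

/-- the columns: `n` slots are left -/
def colS (g V : ℕ) (E : List Grp) (h0 : ℕ) (n : ℕ) : ℕ → ℕ → Bool → Bool → ℕ → Bool :=
  Nat.rec (fun O pm a b q => colE g V E h0 O pm a b q)
    (fun n ih O pm a b q => ifr (Nat.beq (cvu V O) 63)
      (slot V O pm (Nat.sub 5 n) fun O' H d =>
        ifr (mtB (gm g (Nat.sub 4 n)) H)
          (ifr (mtB pm (gm g (Nat.sub 5 n))) true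
            (ih O' H a false (Nat.add q (Nat.mul d (Nat.pow 64 (Nat.sub 5 n))))))
          (ih O' H false (ifr (mtB pm (gm g (Nat.sub 5 n))) b false)
            (Nat.add q (Nat.mul d (Nat.pow 64 (Nat.sub 5 n)))))) true) n

/-- **the search** -/
def srch (g V : ℕ) (E : List Grp) : Bool :=
  slot V (ov V) 0 0 fun O' H d => colS g V E H 5 O' H true true d

/-! ### the tables are right -/

theorem frT_ok {w : ZMod 6 × ℕ} {c : Bool × Bool} (h : w.2 ≤ 3)
    (hc : c.2 = true → c.1 = true ∨ 1 ≤ w.2) (h' : (mvw w c).2 ≤ 3) (j : Fin 6)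
    (hi : inn (mvw w c) (j.val : ZMod 6)) :
    frT.testBit (4 * (24 * j.val + H728.wc w) + cdg c) = true := by
  obtain ⟨a, l⟩ := w
  have key : ∀ (a : ZMod 6) (l : Fin 4) (c : Bool × Bool) (j : Fin 6),
      (c.2 = true → c.1 = true ∨ 1 ≤ l.val) → (mvw (a, l.val) c).2 ≤ 3 →
      inn (mvw (a, l.val) c) (j.val : ZMod 6) →
      frT.testBit (4 * (24 * j.val + (4 * a.val + l.val)) + cdg c) = true := by
    unfold frT; decide +kernel
  exact key a ⟨l, Nat.lt_succ_of_le h⟩ c j hc h' hi

theorem bkT_ok {w : ZMod 6 × ℕ} {c : Bool × Bool} (h : w.2 ≤ 3)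
    (hc : c.2 = true → c.1 = true ∨ 1 ≤ w.2) (h' : (mvw w c).2 ≤ 3) (j : Fin 6)
    (hi : out (mvw w c) (j.val : ZMod 6)) :
    bkT.testBit (4 * (24 * j.val + H728.wc w) + cdg c) = true := by
  obtain ⟨a, l⟩ := w
  have key : ∀ (a : ZMod 6) (l : Fin 4) (c : Bool × Bool) (j : Fin 6),
      (c.2 = true → c.1 = true ∨ 1 ≤ l.val) → (mvw (a, l.val) c).2 ≤ 3 →
      out (mvw (a, l.val) c) (j.val : ZMod 6) →
      bkT.testBit (4 * (24 * j.val + (4 * a.val + l.val)) + cdg c) = true := by
    unfold bkT; decide +kernel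
  exact key a ⟨l, Nat.lt_succ_of_le h⟩ c j hc h' hi

theorem ovT_ok {w : ZMod 6 × ℕ} {c : Bool × Bool} (h : w.2 ≤ 3)
    (hc : c.2 = true → c.1 = true ∨ 1 ≤ w.2) (h' : (mvw w c).2 ≤ 3) :
    ovT.testBit (4 * H728.wc w + cdg c) = true := by
  obtain ⟨a, l⟩ := w
  have key : ∀ (a : ZMod 6) (l : Fin 4) (c : Bool × Bool),
      (c.2 = true → c.1 = true ∨ 1 ≤ l.val) → (mvw (a, l.val) c).2 ≤ 3 →
      ovT.testBit (4 * (4 * a.val + l.val) + cdg c) = true := by
    unfold ovT; decide +kernel
  exact key a ⟨l, Nat.lt_succ_of_le h⟩ c hc h'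

theorem cuT_ok {w : ZMod 6 × ℕ} {c : Bool × Bool} (h : w.2 ≤ 3)
    (hc : c.2 = true → c.1 = true ∨ 1 ≤ w.2) (h' : (mvw w c).2 ≤ 3) (k : Fin 6)
    (hk : ((k.val : ZMod 6) - 1 - (mvw w c).1).val < (mvw w c).2) {o : ℕ} (ho : o < 16)
    (hoc : o.testBit (cdg c) = true) :
    cuT.testBit (96 * H728.wc w + 6 * o + k.val) = true := by
  obtain ⟨a, l⟩ := w
  have key : ∀ (a : ZMod 6) (l : Fin 4) (c : Bool × Bool) (k : Fin 6) (o : Fin 16),
      (c.2 = true → c.1 = true ∨ 1 ≤ l.val) → (mvw (a, l.val) c).2 ≤ 3 →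
      ((k.val : ZMod 6) - 1 - (mvw (a, l.val) c).1).val < (mvw (a, l.val) c).2 →
      o.val.testBit (cdg c) = true →
      cuT.testBit (96 * (4 * a.val + l.val) + 6 * o.val + k.val) = true := by
    unfold cuT; decide +kernel
  exact key a ⟨l, Nat.lt_succ_of_le h⟩ c k ⟨o, ho⟩ hc h' hk hoc

end Vale.Agent.P032.H728.G
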